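import Vale.Agent.P354Z.Defs

namespace Vale.Agent.P354BL

open Vale.Agent.P354n (R4 IsConn)
open Vale.Agent.P354I (X Dat pd)
open Vale.Agent.P354Z (rad sD)

/-- The Kerr metric in the Boyer-Lindquist coordinates x = (t, r, z, φ), z = cos θ:
-(Δ / Σ) (dt - a sin^2 θ dφ)^2 + (Σ / Δ) dr^2 + Σ dθ^2 + (sin^2 θ / Σ) ((r^2 + a^2) dφ - a dt)^2,
where Δ = r^2 - 2 M r + a^2, Σ = r^2 + a^2 cos^2 θ, and dθ^2 = dz^2 / (1 - z^2). -/
noncomputable def bl (M a : ℝ) (x A B : R4) : ℝ :=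
  -((x.2.1 ^ 2 - 2 * M * x.2.1 + a ^ 2) / (x.2.1 ^ 2 + a ^ 2 * x.2.2.1 ^ 2)) *
      ((A.1 - a * (1 - x.2.2.1 ^ 2) * A.2.2.2) * (B.1 - a * (1 - x.2.2.1 ^ 2) * B.2.2.2)) +
    (x.2.1 ^ 2 + a ^ 2 * x.2.2.1 ^ 2) / (x.2.1 ^ 2 - 2 * M * x.2.1 + a ^ 2) * (A.2.1 * B.2.1) +
    (x.2.1 ^ 2 + a ^ 2 * x.2.2.1 ^ 2) / (1 - x.2.2.1 ^ 2) * (A.2.2.1 * B.2.2.1) +
    (1 - x.2.2.1 ^ 2) / (x.2.1 ^ 2 + a ^ 2 * x.2.2.1 ^ 2) *
      (((x.2.1 ^ 2 + a ^ 2) * A.2.2.2 - a * A.1) * ((x.2.1 ^ 2 + a ^ 2) * B.2.2.2 - a * B.1))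

/-- The slice t = 0 in these coordinates; where y 0 ≠ 0 the angle φ is arctan (y 1 / y 0) up to
a locally constant multiple of π. -/
noncomputable def sl (M a : ℝ) (y : X) : R4 := (0, rad M a y, y 2 / ‖y‖, Real.arctan (y 1 / y 0))

/-- Off the bifurcation sphere sD = 0 and the plane y 0 = 0 (a dense open set), d is induced on
t = 0 by the Boyer-Lindquist metric, in the words of IsDev. The future unit normal n points to
increasing t in the exterior sD > 0 and to decreasing t in the other exterior. -/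
def Induced (M a : ℝ) (d : Dat) : Prop :=
  ∀ y : X, y 0 ≠ 0 → sD M a y ≠ 0 → ∃ G n, IsConn (bl M a) G (sl M a y) ∧
    bl M a (sl M a y) n n = -1 ∧ 0 < sD M a y * n.1 ∧ ∀ i k,
      bl M a (sl M a y) (pd i (sl M a) y) n = 0 ∧
      bl M a (sl M a y) (pd i (sl M a) y) (pd k (sl M a) y) = d.h y i k ∧
      -bl M a (sl M a y) n (pd i (pd k (sl M a)) y +
        G (sl M a y) (pd i (sl M a) y) (pd k (sl M a) y)) = d.K y i k

end Vale.Agent.P354BL
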