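import Vale.Agent.P354BL.Defs
import Vale.Agent.P354YR.Ind
import Vale.Agent.P354SF.Lit
import Vale.Agent.P354RK.Main

/-!
The data kerr0 are induced on t = 0 by the Boyer-Lindquist metric.
-/

namespace Vale.Agent.P354BL

open Vale.Agent.P354n (R4 IsConn)
open Vale.Agent.P354I (X Dat pd Sg)
open Vale.Agent.P354R (Del Sig kbl kdom chr)
open Vale.Agent.P354XS (zc ds rad sd AA)
open Vale.Agent.P354XK (Jm nm n0 Om)

theorem bl_eq (M a : ℝ) : bl M a = kbl M a := rfl

theorem sl_eq (M a : ℝ) : sl M a = Jm M a := rfl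

theorem kbl_add (M a : ℝ) (x n u v : R4) :
    kbl M a x n (u + v) = kbl M a x u n + kbl M a x v n := by
  simp only [kbl, Prod.fst_add, Prod.snd_add]
  ring

theorem induced {M a : ℝ} (h : |a| < M) : Induced M a (P354Z.kerr0 M a) := by
  intro y h1 h2
  have M0 : 0 < M := (abs_nonneg a).trans_lt h
  have h3 : a ^ 2 ≤ M ^ 2 := by
    rw [← sq_abs a]
    exact pow_le_pow_left₀ (abs_nonneg a) h.le 2
  have y0 : y ≠ 0 := fun e => h1 (by simp [e])
  have n0' : 0 < ‖y‖ := norm_pos_iff.2 y0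
  have s0 : sd M a y ≠ 0 := h2
  have hy : y ∈ Om M a := ⟨h1, fun e => s0 (by
    rw [mem_sphere_zero_iff_norm] at e
    have e2 : M ^ 2 - a ^ 2 = 4 * ‖y‖ ^ 2 := by
      rw [e, div_pow, Real.sq_sqrt (by linarith)]
      ring
    unfold sd
    rw [e2]
    field_simp
    ring)⟩
  have r0 := P354XQ.rad_pos h y0
  have A0 := P354SF.AA_pos h y0
  have S0 : 0 < Sg a (rad M a y) y := P354XQ.sg_pos h y0
  have hd : Jm M a y ∈ kdom M a := by
    refine ⟨?_, ?_, (P354XK.Om.sin hy).ne'⟩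
    · have := P354SF.del_eq M a y0
      exact fun e => s0 (pow_eq_zero_iff two_ne_zero |>.1 (this.symm.trans e))
    · have : 0 < rad M a y ^ 2 + a ^ 2 * zc y ^ 2 := by positivity
      exact this.ne'
  obtain ⟨G, hG⟩ := (P354RK.k1 M a).2
  have hc := (hG _ hd).1
  obtain ⟨b1, b2⟩ := P354YR.bl_ind M0.le h3 hy
  rw [P354SF.kerr0_eq h, bl_eq, sl_eq]
  refine ⟨G, nm M a y, hc, b1, ?_, fun i k => ⟨(b2 i k).1, (b2 i k).2.1, ?_⟩⟩
  · have e : P354Z.sD M a y * (nm M a y).1 =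
        √(AA M a (rad M a y) (zc y) / Sg a (rad M a y) y) := mul_div_cancel₀ _ s0
    rw [e]
    positivity
  · rw [← (b2 i k).2.2, kbl_add, chr, ← hc]
    ring

end Vale.Agent.P354BL
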